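import Vale.Agent.P038.H837.Sub

/-!
# P038 (H837): the two minimum problems and the key inequality

`F0`: families `B, C` with `N[a] ⊆ B a`, `N[a] ⊆ C a` and never `b ∈ B a`, `a ∈ C b` for `a ≠ b`.
`F1`: families `X, Y` with `a ∈ X a`, `a ∈ Y a` and never `b ∈ N[X a]`, `a ∈ N[Y b]` for `a ≠ b`.
The cost is `K B C = ∑ (c(B a) + c(C a))`. Main theorem `p1_le_p0`: for a minimiser of `F0` there is
a feasible pair for `F1` which is at most as expensive.
-/

namespace Vale.Agent.P038.H837

open Finset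

variable {V : Type*} [Fintype V]

/-- Feasible pairs of the first problem. -/
def F0 (A : V → V → Prop) (B C : V → Finset V) : Prop :=
  (∀ a z, A a z → z ∈ B a) ∧ (∀ a z, A a z → z ∈ C a) ∧ ∀ a b, a ≠ b → b ∈ B a → a ∉ C b

/-- Feasible pairs of the second problem. -/
def F1 (A : V → V → Prop) (X Y : V → Finset V) : Prop :=
  (∀ a, a ∈ X a) ∧ (∀ a, a ∈ Y a) ∧ ∀ a b, a ≠ b → b ∈ N A (X a) → a ∉ N A (Y b)

/-- The cost. -/
noncomputable def K (A : V → V → Prop) (B C : V → Finset V) : ℤ := ∑ a, (cc A (B a) + cc A (C a))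

/-- Minimisers of the first problem. -/
def Min0 (A : V → V → Prop) (B C : V → Finset V) : Prop :=
  F0 A B C ∧ ∀ B' C', F0 A B' C' → K A B C ≤ K A B' C'

variable {A : V → V → Prop} {B C : V → Finset V}

theorem F0.symm (h : F0 A B C) : F0 A C B :=
  ⟨h.2.1, h.1, fun a b hab hb ha => h.2.2 b a hab.symm ha hb⟩

theorem K_comm (B C : V → Finset V) : K A B C = K A C B := by
  unfold K
  exact Finset.sum_congr rfl fun a _ => add_comm _ _

theorem Min0.symm (h : Min0 A B C) : Min0 A C B := by
  refine ⟨F0.symm h.1, fun B' C' h' => ?_⟩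
  rw [K_comm C B, K_comm B' C']
  exact h.2 C' B' (F0.symm h')

theorem sum_upd [DecidableEq V] (f : Finset V → ℤ) (B : V → Finset V) (a : V) (T : Finset V) :
    ∑ x, f (Function.update B a T x) = ∑ x, f (B x) + (f T - f (B a)) := by
  rw [← Finset.add_sum_erase univ (fun x => f (Function.update B a T x)) (mem_univ a),
    ← Finset.add_sum_erase univ (fun x => f (B x)) (mem_univ a)]
  have h1 : ∑ x ∈ univ.erase a, f (Function.update B a T x) = ∑ x ∈ univ.erase a, f (B x) :=
    Finset.sum_congr rfl fun x hx => by rw [Function.update_of_ne (ne_of_mem_erase hx)]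
  rw [h1]
  simp only [Function.update_self]
  ring

/-- Row fact. -/
theorem Min0.row (h : Min0 A B C) (a : V) (T : Finset V) (h1 : ∀ z, A a z → z ∈ T)
    (h2 : ∀ b ∈ T, b = a ∨ a ∉ C b) : cc A (B a) ≤ cc A T := by
  classical
  have hF : F0 A (Function.update B a T) C := by
    refine ⟨?_, h.1.2.1, ?_⟩
    · intro x z hxz
      by_cases hx : x = a
      · subst hx
        rw [Function.update_self]
        exact h1 z hxz
      · rw [Function.update_of_ne hx]
        exact h.1.1 x z hxz
    · intro x b hxb hb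
      by_cases hx : x = a
      · subst hx
        rw [Function.update_self] at hb
        rcases h2 b hb with h3 | h3
        · exact absurd h3.symm hxb
        · exact h3
      · rw [Function.update_of_ne hx] at hb
        exact h.1.2.2 x b hxb hb
  have h3 := h.2 _ _ hF
  unfold K at h3
  rw [sum_add_distrib, sum_add_distrib, sum_upd] at h3
  linarith

open Classical in
/-- `U a = {b : b = a or a ∉ C b}`. -/
noncomputable def UU (C : V → Finset V) (a : V) : Finset V :=
  Finset.univ.filter fun b => b = a ∨ a ∉ C b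

theorem mem_UU {C : V → Finset V} {a b : V} : b ∈ UU C a ↔ b = a ∨ a ∉ C b := by
  classical
  simp [UU]

open Classical in
/-- The intersection of the sets `S s` over all `s` with `A s a`. -/
noncomputable def II (A : V → V → Prop) (S : V → Finset V) (a : V) : Finset V :=
  Finset.univ.filter fun x => ∀ s, A s a → x ∈ S s

theorem mem_II {S : V → Finset V} {a x : V} : x ∈ II A S a ↔ ∀ s, A s a → x ∈ S s := by
  classical
  simp [II]

theorem II_sub {S : V → Finset V} {a s : V} (hs : A s a) : II A S a ⊆ S s :=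
  fun _ hx => mem_II.1 hx s hs

theorem Min0.sub_UU (h : Min0 A B C) (a : V) : B a ⊆ UU C a := by
  intro b hb
  rw [mem_UU]
  by_cases hba : b = a
  · exact Or.inl hba
  · exact Or.inr (h.1.2.2 a b (Ne.symm hba) hb)

/-- Intersecting a subset of `U a` with `B a` does not increase `c`. -/
theorem Min0.cap [DecidableEq V] (h : Min0 A B C) (a : V) (W : Finset V) (hW : W ⊆ UU C a) :
    cc A (W ∩ B a) ≤ cc A W := by
  have h1 := h.row a (W ∪ B a) (fun z hz => mem_union_right _ (h.1.1 a z hz)) (by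
    intro b hb
    rcases mem_union.1 hb with hb | hb
    · exact mem_UU.1 (hW hb)
    · exact mem_UU.1 (h.sub_UU a hb))
  have h2 := cc_sub A W (B a)
  linarith

/-- `L a` minimises `c` between `L a` and `Ū a`. -/
theorem Min0.lmin (h : Min0 A B C) (a : V) (T : Finset V) (hT1 : II A B a ⊆ T)
    (hT2 : T ⊆ II A (UU C) a) : cc A (II A B a) ≤ cc A T := by
  classical
  have key : ∀ S : Finset V, (∀ s ∈ S, A s a) →
      cc A (T.filter fun x => ∀ s ∈ S, x ∈ B s) ≤ cc A T := by
    intro S
    induction S using Finset.induction_on with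
    | empty =>
      intro _
      have h1 : (T.filter fun x => ∀ s ∈ (∅ : Finset V), x ∈ B s) = T := by
        ext x
        simp
      rw [h1]
    | insert s0 S hs ih =>
      intro hS
      have h1 := ih fun s hs' => hS s (mem_insert_of_mem hs')
      have h2 : (T.filter fun x => ∀ s ∈ insert s0 S, x ∈ B s) =
          (T.filter fun x => ∀ s ∈ S, x ∈ B s) ∩ B s0 := by
        ext x
        simp only [mem_filter, mem_inter, Finset.forall_mem_insert]
        tauto
      rw [h2]
      refine (h.cap s0 _ ?_).trans h1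
      intro x hx
      exact mem_II.1 (hT2 (mem_filter.1 hx).1) s0 (hS s0 (mem_insert_self _ _))
  have h1 := key (univ.filter fun s => A s a) (by simp)
  have h2 : (T.filter fun x => ∀ s ∈ univ.filter fun s => A s a, x ∈ B s) = II A B a := by
    ext x
    rw [mem_filter, mem_II]
    constructor
    · rintro ⟨_, hx⟩ s hs
      exact hx s (mem_filter.2 ⟨mem_univ _, hs⟩)
    · intro hx
      exact ⟨hT1 (mem_II.2 hx), fun s hs => hx s (mem_filter.1 hs).2⟩
  rwa [h2] at h1

/-- The first moment inequality. -/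
theorem Min0.moment (hA : ∀ v, A v v) (h : Min0 A B C) (m j' j : ℕ) (hj : j' < j) (W W' : V → Finset V)
    (hW1 : ∀ a, B a ⊆ W a) (hW2 : ∀ a, W a ⊆ UU C a)
    (hWm : ∀ a T, B a ⊆ T → T ⊆ UU C a →
      (m : ℤ) * cc A (W a) - j * (W a).card ≤ m * cc A T - j * T.card)
    (hW1' : ∀ a, II A B a ⊆ W' a) (hW2' : ∀ a, W' a ⊆ II A (UU C) a)
    (hWm' : ∀ a T, II A B a ⊆ T → T ⊆ II A (UU C) a →
      (m : ℤ) * cc A (W' a) - j' * (W' a).card ≤ m * cc A T - j' * T.card) :
    ∑ a, (((UU C a).card : ℤ) - (W a).card) ≤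
      ∑ a, (((II A (UU C) a).card : ℤ) - (W' a).card) := by
  classical
  have hnest : ∀ s v, A s v → W' v ⊆ W s := by
    intro s v hsv
    refine nested A m j' j hj (W' v) (W s) (hWm' v _ ?_ ?_) (hWm s _ ?_ ?_)
    · exact subset_inter (hW1' v) ((II_sub hsv).trans (hW1 s))
    · exact inter_subset_left.trans (hW2' v)
    · exact (hW1 s).trans subset_union_right
    · exact union_subset ((hW2' v).trans (II_sub hsv)) (hW2 s)
  have e1 : ∀ a, ((UU C a).card : ℤ) - (W a).card = ((UU C a \ W a).card : ℤ) := by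
    intro a
    have h1 := card_sdiff_add_card_eq_card (hW2 a)
    omega
  have e2 : ∀ a, ((II A (UU C) a).card : ℤ) - (W' a).card =
      ((II A (UU C) a \ W' a).card : ℤ) := by
    intro a
    have h1 := card_sdiff_add_card_eq_card (hW2' a)
    omega
  rw [sum_congr rfl fun a _ => e1 a, sum_congr rfl fun a _ => e2 a,
    dc (fun a => UU C a \ W a), dc (fun a => II A (UU C) a \ W' a)]
  refine sum_le_sum fun x _ => ?_
  set Kx := col (fun a => UU C a \ W a) x with hKx
  have hK : ∀ a ∈ Kx, x ∈ UU C a ∧ x ∉ W a := by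
    intro a ha
    exact mem_sdiff.1 (mem_col.1 ha)
  have hdis : Disjoint (C x) Kx := by
    rw [disjoint_left]
    intro a haC haK
    obtain ⟨h1, h2⟩ := hK a haK
    rcases mem_UU.1 h1 with h3 | h3
    · subst h3
      exact h2 (hW1 x (h.1.1 x x (hA x)))
    · exact h3 haC
  have h1 := h.symm.row x (C x ∪ Kx) (fun z hz => mem_union_left _ (h.1.2.1 x z hz)) (by
    intro b hb
    rcases mem_union.1 hb with hb | hb
    · by_cases hbx : b = x
      · exact Or.inl hbx
      · exact Or.inr fun h3 => h.1.2.2 b x hbx h3 hb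
    · exact Or.inr fun h3 => (hK b hb).2 (hW1 b h3))
  have h2 : (N A Kx \ N A (C x)) ⊆ col (fun a => II A (UU C) a \ W' a) x := by
    intro v hv
    obtain ⟨hv1, hv2⟩ := mem_sdiff.1 hv
    obtain ⟨k, hk, hkv⟩ := mem_N.1 hv1
    refine mem_col.2 (mem_sdiff.2 ⟨mem_II.2 fun s hsv => mem_UU.2 (Or.inr fun hsC => ?_), ?_⟩)
    · exact hv2 (mem_N.2 ⟨s, hsC, hsv⟩)
    · exact fun h3 => (hK k hk).2 (hnest k v hkv h3)
  have h3 := card_le_card h2
  have h4 : (N A (C x ∪ Kx)).card = (N A (C x)).card + (N A Kx \ N A (C x)).card := by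
    rw [N_union, ← union_sdiff_self_eq_union, card_union_of_disjoint disjoint_sdiff]
  have h5 : (C x ∪ Kx).card = (C x).card + Kx.card := card_union_of_disjoint hdis
  unfold cc at h1
  rw [h4, h5] at h1
  push_cast at h1
  omega

/-- The key inequality. -/
theorem Min0.key (hA : ∀ v, A v v) (h : Min0 A B C) :
    ∑ a, (cc A (UU C a) - cc A (B a)) ≤
      ∑ a, (cc A (II A (UU C) a) - cc A (II A B a)) := by
  classical
  set n := Fintype.card V with hn
  set m := 2 * n * n + 1 with hm
  set J := m * n with hJ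
  have hsub : ∀ a, II A B a ⊆ II A (UU C) a := fun a x hx =>
    mem_II.2 fun s hs => h.sub_UU s (mem_II.1 hx s hs)
  have hW : ∀ a : V, ∀ j : ℕ, ∃ W, B a ⊆ W ∧ W ⊆ UU C a ∧ ∀ T, B a ⊆ T → T ⊆ UU C a →
      (m : ℤ) * cc A W - j * W.card ≤ m * cc A T - j * T.card := fun a j =>
    exists_minimiser (fun X => (m : ℤ) * cc A X - j * X.card) (B a) (UU C a) (h.sub_UU a)
  have hW' : ∀ a : V, ∀ j : ℕ, ∃ W, II A B a ⊆ W ∧ W ⊆ II A (UU C) a ∧
      ∀ T, II A B a ⊆ T → T ⊆ II A (UU C) a →
      (m : ℤ) * cc A W - j * W.card ≤ m * cc A T - j * T.card := fun a j =>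
    exists_minimiser (fun X => (m : ℤ) * cc A X - j * X.card) (II A B a) (II A (UU C) a) (hsub a)
  choose W hW1 hW2 hWm using hW
  choose W' hW1' hW2' hWm' using hW'
  set s : ℕ → ℤ := fun j => ∑ a, (((UU C a).card : ℤ) - (W a j).card) with hs
  set t : ℕ → ℤ := fun j => ∑ a, (((II A (UU C) a).card : ℤ) - (W' a j).card) with ht
  have hst : ∀ j, s (j + 1) ≤ t j := fun j =>
    h.moment hA m j (j + 1) (Nat.lt_succ_self j) (fun a => W a (j + 1)) (fun a => W' a j)
      (fun a => hW1 a _) (fun a => hW2 a _) (fun a => hWm a _) (fun a => hW1' a _)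
      (fun a => hW2' a _) (fun a => hWm' a _)
  have hs0 : ∀ j, 0 ≤ s j := fun j => sum_nonneg fun a _ => by
    have := card_le_card (hW2 a j)
    omega
  have ht0 : ∀ j, 0 ≤ t j := fun j => sum_nonneg fun a _ => by
    have := card_le_card (hW2' a j)
    omega
  have hsn : s 0 ≤ n * n := by
    have h1 : s 0 ≤ ∑ _a : V, (n : ℤ) := sum_le_sum fun a _ => by
      have h2 := card_le_n (UU C a)
      have h3 : (0 : ℤ) ≤ (W a 0).card := by positivity
      omega
    rw [sum_const, card_univ, nsmul_eq_mul] at h1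
    exact h1
  have htn : t 0 ≤ n * n := by
    have h1 : t 0 ≤ ∑ _a : V, (n : ℤ) := sum_le_sum fun a _ => by
      have h2 := card_le_n (II A (UU C) a)
      have h3 : (0 : ℤ) ≤ (W' a 0).card := by positivity
      omega
    rw [sum_const, card_univ, nsmul_eq_mul] at h1
    exact h1
  have hup : (m : ℤ) * ∑ a, (cc A (UU C a) - cc A (B a)) ≤ ∑ j ∈ range J, s j := by
    rw [hs, sum_comm, mul_sum]
    exact sum_le_sum fun a _ => tele_up A m J (B a) (UU C a) (h.sub_UU a) (W a) (hW2 a) (hW1 a)
      (hWm a) le_rfl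
  have hlo : ∑ j ∈ range J, t (j + 1) ≤
      (m : ℤ) * ∑ a, (cc A (II A (UU C) a) - cc A (II A B a)) := by
    rw [ht, sum_comm, mul_sum]
    exact sum_le_sum fun a _ => tele_lo A m J (II A B a) (II A (UU C) a) (hsub a) (W' a) (hW2' a)
      (hW1' a) (hWm' a) (fun T h1 h2 => h.lmin a T h1 h2)
  have h1 : ∑ j ∈ range J, s j ≤ ∑ j ∈ range J, s (j + 1) + s 0 := by
    have h2 := sum_range_succ s J
    have h3 := sum_range_succ' s J
    have h4 := hs0 J
    linarith
  have h2 : ∑ j ∈ range J, t j ≤ ∑ j ∈ range J, t (j + 1) + t 0 := by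
    have h2 := sum_range_succ t J
    have h3 := sum_range_succ' t J
    have h4 := ht0 J
    linarith
  have h3 : ∑ j ∈ range J, s (j + 1) ≤ ∑ j ∈ range J, t j := sum_le_sum fun j _ => hst j
  by_contra hcon
  push Not at hcon
  have h4 : (m : ℤ) * (∑ a, (cc A (II A (UU C) a) - cc A (II A B a)) + 1) ≤
      m * ∑ a, (cc A (UU C a) - cc A (B a)) :=
    mul_le_mul_of_nonneg_left (by omega) (by positivity)
  have h5 : (m : ℤ) = 2 * n * n + 1 := by
    rw [hm]
    push_cast
    ring
  have h6 : (m : ℤ) * (∑ a, (cc A (II A (UU C) a) - cc A (II A B a)) + 1) =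
    m * ∑ a, (cc A (II A (UU C) a) - cc A (II A B a)) + m := by ring
  have h7 : (2 : ℤ) * n * n = n * n + n * n := by ring
  linarith

/-- Two sets which meet only in `b`. -/
theorem card_pair (S T : Finset V) (b : V) (h : ∀ a, a ≠ b → a ∈ T → a ∉ S) :
    (T.card : ℤ) + S.card ≤ Fintype.card V + 1 := by
  classical
  have h1 := card_union_add_card_inter T S
  have h2 : (T ∩ S).card ≤ ({b} : Finset V).card := card_le_card (by
    intro a ha
    obtain ⟨h3, h4⟩ := mem_inter.1 ha
    by_contra hab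
    exact h a (fun h5 => hab (mem_singleton.2 h5)) h3 h4)
  rw [card_singleton] at h2
  have h3 : (T ∪ S).card ≤ Fintype.card V := card_le_univ _
  omega

/-- Two sets which meet exactly in `b` and cover everything. -/
theorem card_pair_eq (S T : Finset V) (b : V) (hS : b ∈ S) (hT : b ∈ T)
    (h : ∀ a, a ≠ b → (a ∈ T ↔ a ∉ S)) : (T.card : ℤ) + S.card = Fintype.card V + 1 := by
  classical
  have h1 := card_union_add_card_inter T S
  have h2 : T ∩ S = {b} := by
    ext a
    rw [mem_inter, mem_singleton]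
    constructor
    · rintro ⟨h3, h4⟩
      by_contra hab
      exact (h a hab).1 h3 h4
    · rintro rfl
      exact ⟨hT, hS⟩
  have h3 : T ∪ S = univ := by
    ext a
    simp only [mem_union, mem_univ, iff_true]
    by_cases hab : a = b
    · subst hab
      exact Or.inl hT
    · by_cases haS : a ∈ S
      · exact Or.inr haS
      · exact Or.inl ((h a hab).2 haS)
  rw [h2, h3, card_singleton, card_univ] at h1
  omega

/-- The pair of intersections is feasible for the second problem. -/
theorem F0.f1 (hA : ∀ v, A v v) (h : F0 A B C) : F1 A (II A B) (II A C) := by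
  refine ⟨fun a => mem_II.2 fun s hs => h.1 s a hs, fun a => mem_II.2 fun s hs => h.2.1 s a hs, ?_⟩
  intro a b hab hb ha
  obtain ⟨x, hx, hxb⟩ := mem_N.1 hb
  obtain ⟨y, hy, hya⟩ := mem_N.1 ha
  have h1 : x ∈ B y := mem_II.1 hx y hya
  have h2 : y ∈ C x := mem_II.1 hy x hxb
  have h3 : y = x := by
    by_contra hyx
    exact h.2.2 y x hyx h1 h2
  subst h3
  have h4 : a = y := by
    by_contra hay
    exact h.2.2 a y hay (mem_II.1 hx a (hA a)) (h.2.1 y a hya)
  subst h4
  exact h.2.2 a b hab (h.1 a b hxb) (mem_II.1 hy b (hA b))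

/-- The second problem is at most as expensive as the first one. -/
theorem p1_le_p0 (hA : ∀ v, A v v) (h : Min0 A B C) :
    F1 A (II A B) (II A C) ∧ K A (II A B) (II A C) ≤ K A B C := by
  refine ⟨h.1.f1 hA, ?_⟩
  have hB : ∀ a, a ∈ B a := fun a => h.1.1 a a (hA a)
  have hC : ∀ a, a ∈ C a := fun a => h.1.2.1 a a (hA a)
  have e1 : ∀ b, ((col (UU C) b).card : ℤ) + (C b).card = Fintype.card V + 1 := by
    intro b
    refine card_pair_eq (C b) (col (UU C) b) b (hC b) (mem_col.2 (mem_UU.2 (Or.inl rfl))) ?_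
    intro a hab
    rw [mem_col, mem_UU]
    constructor
    · rintro (h1 | h1)
      · exact absurd h1.symm hab
      · exact h1
    · exact Or.inr
  have e2 : ∀ b, ((col (II A (UU C)) b).card : ℤ) + (N A (C b)).card = Fintype.card V + 1 := by
    intro b
    refine card_pair_eq _ _ b (subset_N hA _ (hC b)) ?_ ?_
    · refine mem_col.2 (mem_II.2 fun s hs => mem_UU.2 ?_)
      by_cases hbs : b = s
      · exact Or.inl hbs
      · exact Or.inr (h.1.2.2 s b (Ne.symm hbs) (h.1.1 s b hs))
    · intro v hvb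
      rw [mem_col, mem_II]
      constructor
      · intro h1 h2
        obtain ⟨s, hs, hsv⟩ := mem_N.1 h2
        rcases mem_UU.1 (h1 s hsv) with h3 | h3
        · subst h3
          rcases mem_UU.1 (h1 v (hA v)) with h4 | h4
          · exact hvb h4.symm
          · exact h4 (h.1.2.1 b v hsv)
        · exact h3 hs
      · intro h1 s hs
        exact mem_UU.2 (Or.inr fun h2 => h1 (mem_N.2 ⟨s, h2, hs⟩))
  have e3 : ∀ b, ((col (fun a => N A (UU C a)) b).card : ℤ) + (II A C b).card =
      Fintype.card V + 1 := by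
    intro b
    refine card_pair_eq _ _ b (mem_II.2 fun s hs => h.1.2.1 s b hs) ?_ ?_
    · exact mem_col.2 (mem_N.2 ⟨b, mem_UU.2 (Or.inl rfl), hA b⟩)
    · intro a hab
      rw [mem_col, mem_N]
      constructor
      · rintro ⟨x, hx, hxb⟩ h2
        rcases mem_UU.1 hx with h3 | h3
        · subst h3
          exact h.1.2.2 x b hab (h.1.1 x b hxb) (mem_II.1 h2 b (hA b))
        · exact h3 (mem_II.1 h2 x hxb)
      · intro h1
        rw [mem_II] at h1
        push Not at h1
        obtain ⟨s, hs, hs'⟩ := h1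
        exact ⟨s, mem_UU.2 (Or.inr hs'), hs⟩
  have e4 : ∀ b, ((col (fun a => N A (II A (UU C) a)) b).card : ℤ) + (N A (II A C b)).card ≤
      Fintype.card V + 1 := by
    intro b
    refine card_pair _ _ b ?_
    intro v hvb h1 h2
    obtain ⟨x, hx, hxb⟩ := mem_N.1 (mem_col.1 h1)
    obtain ⟨y, hy, hyv⟩ := mem_N.1 h2
    have h3 : y ∈ C x := mem_II.1 hy x hxb
    rcases mem_UU.1 (mem_II.1 hx y hyv) with h4 | h4
    · subst h4
      rcases mem_UU.1 (mem_II.1 hx v (hA v)) with h5 | h5
      · subst h5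
        exact h.1.2.2 x b hvb (h.1.1 x b hxb) (mem_II.1 hy b (hA b))
      · exact h5 (h.1.2.1 x v hyv)
    · exact h4 h3
  have s1 := dc (UU C)
  have s2 := dc (II A (UU C))
  have s3 := dc (fun a => N A (UU C a))
  have s4 := dc (fun a => N A (II A (UU C) a))
  have t1 : ∑ b, ((C b).card : ℤ) = ∑ b : V, ((Fintype.card V : ℤ) + 1) -
      ∑ b, ((col (UU C) b).card : ℤ) := by
    rw [← sum_sub_distrib]
    exact sum_congr rfl fun b _ => by linarith [e1 b]
  have t2 : ∑ b, ((N A (C b)).card : ℤ) = ∑ b : V, ((Fintype.card V : ℤ) + 1) -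
      ∑ b, ((col (II A (UU C)) b).card : ℤ) := by
    rw [← sum_sub_distrib]
    exact sum_congr rfl fun b _ => by linarith [e2 b]
  have t3 : ∑ b, ((II A C b).card : ℤ) = ∑ b : V, ((Fintype.card V : ℤ) + 1) -
      ∑ b, ((col (fun a => N A (UU C a)) b).card : ℤ) := by
    rw [← sum_sub_distrib]
    exact sum_congr rfl fun b _ => by linarith [e3 b]
  have t4 : ∑ b, ((N A (II A C b)).card : ℤ) ≤ ∑ b : V, ((Fintype.card V : ℤ) + 1) -
      ∑ b, ((col (fun a => N A (II A (UU C) a)) b).card : ℤ) := by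
    rw [← sum_sub_distrib]
    exact sum_le_sum fun b _ => by linarith [e4 b]
  have hkey := h.key hA
  unfold K
  unfold cc at hkey ⊢
  simp only [sum_add_distrib, sum_sub_distrib] at hkey ⊢
  linarith

end Vale.Agent.P038.H837
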