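import Vale.Agent.P038.H837.Key
import Vale.Agent.P038.H71.Plan

/-!
# P038 (H837): Seymour's second neighbourhood conjecture

`snc`: every nonempty finite oriented graph has a vertex `v` with `|N₁(v)| ≤ |N₂(v)|`.
-/

namespace Vale.Agent.P038.H837

open Finset Vale.Agent.P038.H139 Vale.Agent.P038.H71

universe u

variable {V : Type u} [Fintype V]

/-- The closed adjacency relation. -/
def adj (D : OGraph V) (a z : V) : Prop := z = a ∨ D.arc a z

theorem adj_refl (D : OGraph V) (v : V) : adj D v v := Or.inl rfl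

theorem N_adj (D : OGraph V) (X : Finset V) : N (adj D) X = cl D X := by
  ext z
  rw [mem_N, mem_cl]
  constructor
  · rintro ⟨y, hy, (rfl | h)⟩
    · exact Or.inl hy
    · exact Or.inr ⟨y, hy, h⟩
  · rintro (h | ⟨y, hy, h⟩)
    · exact ⟨z, h, Or.inl rfl⟩
    · exact ⟨y, hy, Or.inr h⟩

/-- A counterexample. -/
def CE (D : OGraph V) : Prop := ∀ v, (N2 D v).card < (N1 D v).card

theorem ce_iff (D : OGraph V) : CE D ↔ ∀ v, 1 ≤ Fw 1 D (fun _ => (1 : ℝ)) v := by
  have h1 : ∀ v, Fw 1 D (fun _ => (1 : ℝ)) v = ((N1 D v).card : ℝ) - (N2 D v).card := by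
    intro v
    simp [Fw, W]
  constructor
  · intro h v
    have h2 : (N2 D v).card + 1 ≤ (N1 D v).card := h v
    have h3 : ((N2 D v).card : ℝ) + 1 ≤ (N1 D v).card := by exact_mod_cast h2
    rw [h1]
    linarith
  · intro h v
    have h2 := h v
    rw [h1] at h2
    have h3 : ((N2 D v).card : ℝ) + 1 ≤ (N1 D v).card := by linarith
    have h4 : (N2 D v).card + 1 ≤ (N1 D v).card := by exact_mod_cast h3
    exact h4

/-- (G): in a counterexample with the fewest arcs the closed neighbourhood of a set which is not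
closed has a smaller value of `c`. -/
theorem gstep (D : OGraph V) (hCE : CE D)
    (hmin : ∀ D' : OGraph V, CE D' → numArcs D ≤ numArcs D') (X : Finset V)
    (hX : N (adj D) X ≠ X) : cc (adj D) (N (adj D) X) < cc (adj D) X := by
  classical
  set w : V → ℝ := fun _ => 1 with hw
  set L := Lx D X with hL
  have hL' : L = outS D X \ X := hL
  have hcl : cl D X = X ∪ L := by
    ext z
    rw [mem_cl, mem_union, hL', mem_sdiff, mem_outS]
    by_cases hz : z ∈ X
    · simp [hz]
    · simp [hz]
  have hLne : L ≠ ∅ := by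
    intro h1
    apply hX
    rw [N_adj, hcl, h1, union_empty]
  have hd0 : dd 1 D w X ∅ = 0 := by
    have h1 : cl D ∅ = ∅ := by
      ext z
      rw [mem_cl]
      simp
    simp [dd, W, h1]
  have hneg : dd 1 D w X L < 0 := by
    by_contra hcon
    push Not at hcon
    obtain ⟨T, hT1, hT2⟩ := Finset.exists_min_image L.powerset (dd 1 D w X)
      ⟨∅, by simp⟩
    -- a minimiser different from `L`
    have h1 : ∃ T, T ⊆ L ∧ T ≠ L ∧ ∀ S, S ⊆ L → dd 1 D w X T ≤ dd 1 D w X S := by
      by_cases hTL : T = L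
      · refine ⟨∅, empty_subset _, fun h2 => hLne h2.symm, fun S hS => ?_⟩
        have h3 := hT2 S (mem_powerset.2 hS)
        rw [hTL] at h3
        linarith
      · exact ⟨T, mem_powerset.1 hT1, hTL, fun S hS => hT2 S (mem_powerset.2 hS)⟩
    obtain ⟨T, hTL, hTne, hTmin⟩ := h1
    have h2 := del_rows (lam := 1) (D := D) (w := w) (fun _ => zero_le_one)
      ((ce_iff D).1 hCE) X T hTL (fun S _ hS => hTmin S hS)
    have h3 := hmin _ ((ce_iff _).2 h2)
    obtain ⟨z, hzL, hzT⟩ := Finset.exists_of_ssubset (Finset.ssubset_iff_subset_ne.2 ⟨hTL, hTne⟩)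
    have hzL' : z ∈ outS D X \ X := hzL
    obtain ⟨y, hy, hyz⟩ := mem_outS.1 (Finset.mem_sdiff.1 hzL').1
    have h4 := numArcs_lt_del (D := D) (Z := Lx D X \ T) hy (Finset.mem_sdiff.2 ⟨hzL, hzT⟩) hyz
    omega
  have hdL : dd 1 D w X L = ((cl D L \ X).card : ℝ) - 2 * L.card := by
    simp only [dd, W, hw, sum_const, nsmul_eq_mul, mul_one]
    ring
  rw [hdL] at hneg
  have hneg' : (((cl D L \ X).card : ℤ)) - 2 * L.card < 0 := by exact_mod_cast hneg
  have hdis : Disjoint X L := by
    rw [hL']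
    exact disjoint_sdiff
  have e1 : cl D (X ∪ L) = X ∪ (cl D L \ X) := by
    rw [cl_union, hcl]
    ext z
    simp only [mem_union, mem_sdiff]
    have : z ∈ L → z ∈ cl D L := fun h => mem_cl.2 (Or.inl h)
    tauto
  have e2 : (X ∪ L).card = X.card + L.card := card_union_of_disjoint hdis
  have e3 : (X ∪ (cl D L \ X)).card = X.card + (cl D L \ X).card :=
    card_union_of_disjoint disjoint_sdiff
  unfold cc
  rw [N_adj, N_adj, hcl, e1, e2, e3]
  push_cast
  linarith

/-- A minimiser of the first problem exists. -/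
theorem exists_min0 (D : OGraph V) : ∃ B C, Min0 (adj D) B C := by
  have hne : ({p : (V → Finset V) × (V → Finset V) | F0 (adj D) p.1 p.2} : Set _).Nonempty := by
    refine ⟨(fun a => N (adj D) {a}, fun a => N (adj D) {a}), ?_, ?_, ?_⟩
    · intro a z h
      exact mem_N.2 ⟨a, mem_singleton_self a, h⟩
    · intro a z h
      exact mem_N.2 ⟨a, mem_singleton_self a, h⟩
    · intro a b hab hb ha
      obtain ⟨x, hx, hxb⟩ := mem_N.1 hb
      obtain ⟨y, hy, hya⟩ := mem_N.1 ha
      rw [mem_singleton] at hx hy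
      subst hx hy
      rcases hxb with h1 | h1
      · exact hab h1.symm
      · rcases hya with h2 | h2
        · exact hab h2
        · exact D.asymm _ _ h1 h2
  obtain ⟨p, hp, hmin⟩ := Set.exists_min_image _ (fun p => K (adj D) p.1 p.2) (Set.toFinite _) hne
  exact ⟨p.1, p.2, hp, fun B' C' h' => hmin (B', C') h'⟩

theorem closed_reach {D : OGraph V} {S : Finset V} (hS : N (adj D) S = S) {a z : V}
    (ha : a ∈ S) (h : Relation.ReflTransGen D.arc a z) : z ∈ S := by
  induction h with
  | refl => exact ha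
  | tail _ h2 ih =>
    rw [← hS]
    exact mem_N.2 ⟨_, ih, Or.inr h2⟩

/-- If every vertex has an out-neighbour, two different vertices reach each other. -/
theorem exists_cycle [Nonempty V] (D : OGraph V) (h : ∀ v, ∃ u, D.arc v u) :
    ∃ a b, a ≠ b ∧ Relation.ReflTransGen D.arc a b ∧ Relation.ReflTransGen D.arc b a := by
  classical
  obtain ⟨a, -, ha⟩ := Finset.exists_min_image (univ : Finset V)
    (fun v => (univ.filter fun z => Relation.ReflTransGen D.arc v z).card) univ_nonempty
  obtain ⟨b, hab⟩ := h a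
  have h1 : (univ.filter fun z => Relation.ReflTransGen D.arc b z) ⊆
      univ.filter fun z => Relation.ReflTransGen D.arc a z := by
    intro z hz
    rw [mem_filter] at hz ⊢
    exact ⟨mem_univ _, Relation.ReflTransGen.head hab hz.2⟩
  have h2 := Finset.eq_of_subset_of_card_le h1 (ha b (mem_univ b))
  have h3 : a ∈ univ.filter fun z => Relation.ReflTransGen D.arc b z := by
    rw [h2]
    exact mem_filter.2 ⟨mem_univ _, Relation.ReflTransGen.refl⟩
  refine ⟨a, b, ?_, Relation.ReflTransGen.single hab, (mem_filter.1 h3).2⟩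
  rintro rfl
  exact D.loopless a hab

/-- There is no counterexample with the fewest arcs. -/
theorem no_min [Nonempty V] (D : OGraph V) (hCE : CE D)
    (hmin : ∀ D' : OGraph V, CE D' → numArcs D ≤ numArcs D') : False := by
  have hG := gstep D hCE hmin
  obtain ⟨B, C, hBC⟩ := exists_min0 D
  have hA := adj_refl D
  obtain ⟨hF, hK⟩ := p1_le_p0 hA hBC
  set X := II (adj D) B with hX
  set Y := II (adj D) C with hY
  have hF0 : F0 (adj D) (fun a => N (adj D) (X a)) (fun a => N (adj D) (Y a)) :=
    ⟨fun a z h => mem_N.2 ⟨a, hF.1 a, h⟩, fun a z h => mem_N.2 ⟨a, hF.2.1 a, h⟩, hF.2.2⟩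
  have h1 := hBC.2 _ _ hF0
  have hle : ∀ S, cc (adj D) (N (adj D) S) ≤ cc (adj D) S := by
    intro S
    by_cases hS : N (adj D) S = S
    · rw [hS]
    · exact (hG S hS).le
  have h2 : ∀ a, cc (adj D) (N (adj D) (X a)) + cc (adj D) (N (adj D) (Y a)) ≤
      cc (adj D) (X a) + cc (adj D) (Y a) := fun a => add_le_add (hle _) (hle _)
  have h3 : K (adj D) (fun a => N (adj D) (X a)) (fun a => N (adj D) (Y a)) =
      K (adj D) X Y := le_antisymm (sum_le_sum fun a _ => h2 a) (hK.trans h1)
  have h4 := (Finset.sum_eq_sum_iff_of_le fun a _ => h2 a).1 h3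
  have hclosed : ∀ a, N (adj D) (X a) = X a ∧ N (adj D) (Y a) = Y a := by
    intro a
    have h5 := h4 a (mem_univ a)
    constructor
    · by_contra h6
      have h7 := hG _ h6
      have h8 := hle (Y a)
      linarith
    · by_contra h6
      have h7 := hG _ h6
      have h8 := hle (X a)
      linarith
  have hout : ∀ v, ∃ u, D.arc v u := by
    intro v
    have h5 := hCE v
    have h6 : 0 < (N1 D v).card := by omega
    obtain ⟨u, hu⟩ := Finset.card_pos.1 h6
    exact ⟨u, mem_N1.1 hu⟩
  obtain ⟨a, b, hab, hr1, hr2⟩ := exists_cycle D hout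
  have h5 : b ∈ X a := closed_reach (hclosed a).1 (hF.1 a) hr1
  have h6 : a ∈ Y b := closed_reach (hclosed b).2 (hF.2.1 b) hr2
  exact hF.2.2 a b hab (by rw [(hclosed a).1]; exact h5) (by rw [(hclosed b).2]; exact h6)

/-- Seymour's second neighbourhood conjecture. -/
theorem snc [Nonempty V] (D : OGraph V) : ∃ v, (N1 D v).card ≤ (N2 D v).card := by
  classical
  by_contra hcon
  push Not at hcon
  have hex : ∃ n, ∃ D : OGraph V, CE D ∧ numArcs D = n := ⟨_, D, hcon, rfl⟩
  obtain ⟨D0, hD0, hn⟩ := Nat.find_spec hex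
  refine no_min D0 hD0 fun D' hD' => ?_
  rw [hn]
  exact Nat.find_min' hex ⟨D', hD', rfl⟩

end Vale.Agent.P038.H837
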