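import Mathlib

/-!
# P038 (H837): closed neighbourhoods, submodularity, parametric minimisers

For a relation `A` on a finite set, `N A X` is the set of all `z` with `A y z` for some `y ∈ X`
(for us `A` is reflexive) and `cc A X = |N A X| - |X|`, a submodular function of `X`.
-/

namespace Vale.Agent.P038.H837

open Finset

variable {V : Type*} [Fintype V]

open Classical in
/-- The set of all vertices reached from `X` by the relation `A`. -/
noncomputable def N (A : V → V → Prop) (X : Finset V) : Finset V :=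
  Finset.univ.filter fun z => ∃ y ∈ X, A y z

theorem mem_N {A : V → V → Prop} {X : Finset V} {z : V} : z ∈ N A X ↔ ∃ y ∈ X, A y z := by
  classical
  simp [N]

/-- `c(X) = |N[X]| - |X|`. -/
noncomputable def cc (A : V → V → Prop) (X : Finset V) : ℤ := ((N A X).card : ℤ) - X.card

theorem N_mono {A : V → V → Prop} {X Y : Finset V} (h : X ⊆ Y) : N A X ⊆ N A Y := by
  intro z hz
  obtain ⟨y, hy, hyz⟩ := mem_N.1 hz
  exact mem_N.2 ⟨y, h hy, hyz⟩

theorem subset_N {A : V → V → Prop} (hA : ∀ v, A v v) (X : Finset V) : X ⊆ N A X :=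
  fun z hz => mem_N.2 ⟨z, hz, hA z⟩

theorem N_union [DecidableEq V] {A : V → V → Prop} (X Y : Finset V) :
    N A (X ∪ Y) = N A X ∪ N A Y := by
  ext z
  rw [mem_N, mem_union, mem_N, mem_N]
  constructor
  · rintro ⟨y, hy, h⟩
    rcases mem_union.1 hy with hy | hy
    · exact Or.inl ⟨y, hy, h⟩
    · exact Or.inr ⟨y, hy, h⟩
  · rintro (⟨y, hy, h⟩ | ⟨y, hy, h⟩)
    · exact ⟨y, mem_union_left _ hy, h⟩
    · exact ⟨y, mem_union_right _ hy, h⟩

/-- Submodularity. -/
theorem cc_sub [DecidableEq V] (A : V → V → Prop) (X Y : Finset V) :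
    cc A (X ∪ Y) + cc A (X ∩ Y) ≤ cc A X + cc A Y := by
  have h1 := card_union_add_card_inter X Y
  have h2 := card_union_add_card_inter (N A X) (N A Y)
  have h3 : (N A (X ∩ Y)).card ≤ (N A X ∩ N A Y).card :=
    card_le_card (subset_inter (N_mono inter_subset_left) (N_mono inter_subset_right))
  unfold cc
  rw [N_union]
  omega

open Classical in
/-- The set of all `a` with `x ∈ S a`. -/
noncomputable def col (S : V → Finset V) (x : V) : Finset V :=
  Finset.univ.filter fun a => x ∈ S a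

theorem mem_col {S : V → Finset V} {x a : V} : a ∈ col S x ↔ x ∈ S a := by
  classical
  simp [col]

/-- Double counting. -/
theorem dc (S : V → Finset V) : ∑ a, ((S a).card : ℤ) = ∑ x, ((col S x).card : ℤ) := by
  classical
  have h1 : ∀ a, ((S a).card : ℤ) = ∑ x, if x ∈ S a then (1 : ℤ) else 0 := by
    intro a
    rw [Finset.sum_boole]
    congr 2
    ext x
    simp
  have h2 : ∀ x, ((col S x).card : ℤ) = ∑ a, if x ∈ S a then (1 : ℤ) else 0 := by
    intro x
    rw [Finset.sum_boole]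
    congr 2
  rw [Finset.sum_congr rfl fun a _ => h1 a, Finset.sum_comm]
  exact Finset.sum_congr rfl fun x _ => (h2 x).symm

/-- A minimiser of `g` between `P` and `Q`. -/
theorem exists_minimiser (g : Finset V → ℤ) (P Q : Finset V) (hPQ : P ⊆ Q) :
    ∃ W, P ⊆ W ∧ W ⊆ Q ∧ ∀ T, P ⊆ T → T ⊆ Q → g W ≤ g T := by
  classical
  obtain ⟨W, hW, hmin⟩ := Finset.exists_min_image (univ.filter fun T => P ⊆ T ∧ T ⊆ Q) g
    ⟨P, by simp [hPQ]⟩
  have hW' := (mem_filter.1 hW).2
  exact ⟨W, hW'.1, hW'.2, fun T h1 h2 => hmin T (mem_filter.2 ⟨mem_univ _, h1, h2⟩)⟩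

theorem card_le_n (X : Finset V) : (X.card : ℤ) ≤ Fintype.card V := by
  exact_mod_cast card_le_univ X

/-- Upper estimate of `m (c(Q) - c(P))` by the parametric minimisers. -/
theorem tele_up (A : V → V → Prop) (m J : ℕ) (P Q : Finset V) (hPQ : P ⊆ Q)
    (W : ℕ → Finset V) (hW2 : ∀ j, W j ⊆ Q)
    (hWP : ∀ j, P ⊆ W j)
    (hmin : ∀ j : ℕ, ∀ T, P ⊆ T → T ⊆ Q →
      (m : ℤ) * cc A (W j) - j * (W j).card ≤ m * cc A T - j * T.card)
    (hJ : m * Fintype.card V ≤ J) :
    (m : ℤ) * (cc A Q - cc A P) ≤ ∑ j ∈ range J, ((Q.card : ℤ) - (W j).card) := by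
  have h1 : ∀ k : ℕ, (m : ℤ) * cc A (W k) - k * (W k).card ≤
      m * cc A P - ∑ j ∈ range k, ((W j).card : ℤ) := by
    intro k
    induction k with
    | zero =>
      have h2 := hmin 0 P (Subset.refl _) hPQ
      simp only [range_zero, sum_empty]
      push_cast at h2 ⊢
      linarith
    | succ k ih =>
      have h2 := hmin (k + 1) (W k) (hWP k) (hW2 k)
      rw [sum_range_succ]
      push_cast at h2 ⊢
      nlinarith
  have h3 := h1 J
  have h4 : (m : ℤ) * cc A Q - J * Q.card ≤ m * cc A (W J) - J * (W J).card := by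
    have h5 : (W J).card ≤ Q.card := card_le_card (hW2 J)
    rcases Nat.lt_or_ge (W J).card Q.card with h6 | h6
    · have h7 : cc A Q - cc A (W J) ≤ Fintype.card V := by
        have h8 := card_le_n (N A Q)
        have h9 : (0 : ℤ) ≤ (N A (W J)).card := by positivity
        unfold cc
        omega
      have h8 : (m : ℤ) * (cc A Q - cc A (W J)) ≤ m * Fintype.card V :=
        mul_le_mul_of_nonneg_left h7 (by positivity)
      have h9 : (m : ℤ) * Fintype.card V ≤ J := by exact_mod_cast hJ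
      have h10 : (J : ℤ) * 1 ≤ J * ((Q.card : ℤ) - (W J).card) :=
        mul_le_mul_of_nonneg_left (by omega) (by positivity)
      nlinarith
    · have h7 : W J = Q := Finset.eq_of_subset_of_card_le (hW2 J) h6
      rw [h7]
  rw [sum_sub_distrib, sum_const, card_range, nsmul_eq_mul]
  nlinarith

/-- Lower estimate of `m (c(Q) - c(P))` by the parametric minimisers, if `P` is a minimiser. -/
theorem tele_lo (A : V → V → Prop) (m J : ℕ) (P Q : Finset V) (hPQ : P ⊆ Q)
    (W : ℕ → Finset V) (hW2 : ∀ j, W j ⊆ Q)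
    (hWP : ∀ j, P ⊆ W j)
    (hmin : ∀ j : ℕ, ∀ T, P ⊆ T → T ⊆ Q →
      (m : ℤ) * cc A (W j) - j * (W j).card ≤ m * cc A T - j * T.card)
    (hP : ∀ T, P ⊆ T → T ⊆ Q → cc A P ≤ cc A T) :
    ∑ j ∈ range J, ((Q.card : ℤ) - (W (j + 1)).card) ≤ (m : ℤ) * (cc A Q - cc A P) := by
  have h1 : ∀ k : ℕ, (m : ℤ) * cc A P ≤ m * cc A (W k) - k * (W k).card +
      ∑ j ∈ range k, ((W (j + 1)).card : ℤ) := by
    intro k
    induction k with
    | zero =>
      have h2 := mul_le_mul_of_nonneg_left (hP (W 0) (hWP 0) (hW2 0))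
        (show (0 : ℤ) ≤ m by positivity)
      simp only [range_zero, sum_empty]
      push_cast
      linarith
    | succ k ih =>
      have h2 := hmin k (W (k + 1)) (hWP _) (hW2 _)
      rw [sum_range_succ]
      push_cast at h2 ⊢
      nlinarith
  have h3 := h1 J
  have h4 := hmin J Q hPQ (Subset.refl _)
  rw [sum_sub_distrib, sum_const, card_range, nsmul_eq_mul]
  nlinarith

/-- Minimisers for a smaller and a larger parameter are nested. -/
theorem nested [DecidableEq V] (A : V → V → Prop) (m j' j : ℕ) (hj : j' < j) (W' W : Finset V)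
    (h1 : (m : ℤ) * cc A W' - j' * W'.card ≤ m * cc A (W' ∩ W) - j' * (W' ∩ W).card)
    (h2 : (m : ℤ) * cc A W - j * W.card ≤ m * cc A (W' ∪ W) - j * (W' ∪ W).card) :
    W' ⊆ W := by
  have h3 := cc_sub A W' W
  have h4 := card_union_add_card_inter W' W
  have h5 : (W' ∩ W).card ≤ W'.card := card_le_card inter_subset_left
  have h6 : (m : ℤ) * (cc A (W' ∪ W) + cc A (W' ∩ W)) ≤ m * (cc A W' + cc A W) :=
    mul_le_mul_of_nonneg_left h3 (by positivity)
  have h7 : ((W' ∪ W).card : ℤ) = W'.card + W.card - (W' ∩ W).card := by omega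
  rw [h7] at h2
  have h8 : ((j : ℤ) - j') * ((W'.card : ℤ) - (W' ∩ W).card) ≤ 0 := by nlinarith
  have h9 : (W' ∩ W).card = W'.card := by
    by_contra hne
    have h10 : (1 : ℤ) ≤ (W'.card : ℤ) - (W' ∩ W).card := by omega
    have h11 : (1 : ℤ) ≤ (j : ℤ) - j' := by omega
    nlinarith
  have h10 : W' ∩ W = W' := Finset.eq_of_subset_of_card_le inter_subset_left h9.ge
  exact inter_eq_left.1 h10

end Vale.Agent.P038.H837
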